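import Vale.Agent.P313.H146.ModN2

/-!
MODULE N: numerical facts about the parameters, size, computability.
-/

namespace Vale.Agent.P313.H146

open Finset MW

/-- A function of the input alone. -/
theorem lf_up {f : List Bool → ℕ} (hf : LF (fun x _ => f x : Fn 0)) (m : ℕ) :
    LF (fun x _ => f x : Fn m) :=
  LF.comp (k := m) (m := 0) (f := fun x _ => f x) (g := fun i => i.elim0) hf
    (fun i => i.elim0)

theorem pb_two_pow {m : ℕ} {f : List Bool → ℕ} (c : ℕ)
    (h : ∀ x, f x ≤ c * Nat.log 2 (x.length + 2) + c) : PB (fun x _ => 2 ^ f x : Fn m) := by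
  refine ⟨c + c, fun x a => ?_⟩
  have h1 : 2 ^ Nat.log 2 (x.length + 2) ≤ mu x a :=
    (Nat.pow_log_le_self 2 (by omega)).trans (by unfold mu; omega)
  calc 2 ^ f x ≤ 2 ^ (c * Nat.log 2 (x.length + 2) + c) := Nat.pow_le_pow_right (by norm_num) (h x)
    _ = (2 ^ Nat.log 2 (x.length + 2)) ^ c * 2 ^ c := by rw [pow_add, ← pow_mul, mul_comm c]
    _ ≤ mu x a ^ c * mu x a ^ c :=
        Nat.mul_le_mul (Nat.pow_le_pow_left h1 c) (Nat.pow_le_pow_left (two_le_mu x a) c)
    _ = mu x a ^ (c + c) := by rw [pow_add]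

theorem lf_two_pow {m : ℕ} {f : List Bool → ℕ} (hf : LF (fun x _ => f x : Fn m)) (c : ℕ)
    (h : ∀ x, f x ≤ c * Nat.log 2 (x.length + 2) + c) : LF (fun x _ => 2 ^ f x : Fn m) :=
  LF.pow (LF.const 2) hf (pb_two_pow c h)

theorem sqrt_eq (a : ℕ) : Nat.sqrt a = leastBelow (fun j => a < (j + 1) * (j + 1)) (a + 1) := by
  symm
  apply leastBelow_eq
  · have := Nat.sqrt_le_self a; omega
  · exact Nat.lt_succ_sqrt a
  · intro j hj hc
    have h1 : (j + 1) * (j + 1) ≤ a := (Nat.mul_le_mul hj hj).trans (Nat.sqrt_le a)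
    omega

theorem lf_sqrt {k : ℕ} {f : Fn k} (hf : LF f) : LF (fun x a => Nat.sqrt (f x a)) := by
  have h1 := LF.least (k := k) (n := fun x a => f x a + 1)
    (P := fun x c => f x (Fin.tail c) < (c 0 + 1) * (c 0 + 1))
    (LFP.lt hf.weak ((LF.proj 0).succ.mul (LF.proj 0).succ)) hf.succ
  refine h1.congr (fun x a => ?_)
  simp only [Fin.tail_cons, Fin.cons_zero]
  exact (sqrt_eq (f x a)).symm

section comp

variable {lam W g : ℕ → ℕ}

theorem lf_hh (h1 : LF (fun x _ => lam x.length : Fn 0)) (h2 : LF (fun x _ => W x.length : Fn 0))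
    (h3 : LF (fun x _ => g x.length : Fn 0)) (m : ℕ) :
    LF (fun x _ => hh (lam x.length) (W x.length) (g x.length) : Fn m) := by
  unfold hh
  exact ((lf_up h2 m).add ((lf_sqrt ((lf_up h1 m).add (lf_up h3 m))).add (LF.const 1))).add
    (LF.const 10)

theorem bnd_hh {c : ℕ} (h1 : ∀ n, lam n ≤ c * Nat.log 2 (n + 2))
    (h2 : ∀ n, W n ≤ c * Nat.log 2 (n + 2)) (h3 : ∀ n, g n ≤ c * Nat.log 2 (n + 2)) (n : ℕ) :
    hh (lam n) (W n) (g n) ≤ 3 * c * Nat.log 2 (n + 2) + 11 := by
  unfold hh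
  have h4 := Nat.sqrt_le_self (lam n + g n)
  have h5 := h1 n
  have h6 := h2 n
  have h7 := h3 n
  have h8 : 3 * c * Nat.log 2 (n + 2) = 3 * (c * Nat.log 2 (n + 2)) := by ring
  omega

theorem lf_pow_hh {c : ℕ} (h1 : LF (fun x _ => lam x.length : Fn 0))
    (h2 : LF (fun x _ => W x.length : Fn 0))
    (h3 : LF (fun x _ => g x.length : Fn 0)) (h4 : ∀ n, lam n ≤ c * Nat.log 2 (n + 2))
    (h5 : ∀ n, W n ≤ c * Nat.log 2 (n + 2)) (h6 : ∀ n, g n ≤ c * Nat.log 2 (n + 2)) (K m : ℕ) :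
    LF (fun x _ => 2 ^ (K * hh (lam x.length) (W x.length) (g x.length)) : Fn m) := by
  refine lf_two_pow ((LF.const K).mul (lf_hh h1 h2 h3 m)) (K * (3 * c + 11)) (fun x => ?_)
  have h7 := bnd_hh h4 h5 h6 x.length
  have h8 : K * hh (lam x.length) (W x.length) (g x.length) ≤
      K * (3 * c * Nat.log 2 (x.length + 2) + 11) := Nat.mul_le_mul_left _ h7
  nlinarith [Nat.zero_le (K * Nat.log 2 (x.length + 2)), Nat.zero_le (K * c)]

theorem lf_s (h1 : LF (fun x _ => lam x.length : Fn 0)) (h3 : LF (fun x _ => g x.length : Fn 0))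
    (m : ℕ) : LF (fun x _ => Nat.sqrt (lam x.length + g x.length) : Fn m) :=
  lf_sqrt ((lf_up h1 m).add (lf_up h3 m))

theorem comp_thm {c : ℕ} (h1 : LF (fun x _ => lam x.length : Fn 0))
    (h2 : LF (fun x _ => W x.length : Fn 0))
    (h3 : LF (fun x _ => g x.length : Fn 0)) (h4 : ∀ n, lam n ≤ c * Nat.log 2 (n + 2))
    (h5 : ∀ n, W n ≤ c * Nat.log 2 (n + 2)) (h6 : ∀ n, g n ≤ c * Nat.log 2 (n + 2)) :
    PrmLF (fun x => thePrm (lam x.length) (W x.length) (g x.length)) ∧
    (∀ m, LF (fun x _ => theX (lam x.length) (W x.length) (g x.length) : Fn m)) := by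
  have hs : ∀ x : List Bool, Nat.sqrt (lam x.length + g x.length) + 1 ≤
      (2 * c + 1) * Nat.log 2 (x.length + 2) + (2 * c + 1) := by
    intro x
    have h7 := h4 x.length
    have h8 := h6 x.length
    have h9 := Nat.sqrt_le_self (lam x.length + g x.length)
    nlinarith [Nat.zero_le (c * Nat.log 2 (x.length + 2)), Nat.zero_le (Nat.log 2 (x.length + 2))]
  have hsq : ∀ x : List Bool, (Nat.sqrt (lam x.length + g x.length) + 1) *
      (Nat.sqrt (lam x.length + g x.length) + 1) ≤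
      (8 * c + 4) * Nat.log 2 (x.length + 2) + (8 * c + 4) := by
    intro x
    have h7 := h4 x.length
    have h8 := h6 x.length
    have h9 := Nat.sqrt_le (lam x.length + g x.length)
    have h10 := Nat.sqrt_le_self (lam x.length + g x.length)
    nlinarith [Nat.zero_le (c * Nat.log 2 (x.length + 2)), Nat.zero_le (Nat.log 2 (x.length + 2))]
  have hQ : ∀ m, LF (fun x _ => nxp (2 ^ (40 * hh (lam x.length) (W x.length) (g x.length))) :
      Fn m) := fun m => Q.lf_nxp (lf_pow_hh h1 h2 h3 h4 h5 h6 40 m)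
  refine ⟨⟨?_, ?_, ?_, ?_, ?_, ?_, ?_, ?_, ?_, ?_⟩, ?_⟩
  · intro m
    refine LF.congr ((lf_two_pow (lf_up h2 m) c (fun x => ?_)).add (LF.const 1)) (fun x a => ?_)
    · exact (h5 x.length).trans (Nat.le_add_right _ _)
    · exact (thePrm_N _ _ _).symm
  · intro m
    exact LF.congr ((lf_s h1 h3 m).add (LF.const 1)) (fun x a => (thePrm_s _ _ _).symm)
  · intro m
    exact LF.congr (hQ m) (fun x a => (thePrm_Q _ _ _).symm)
  · intro m
    exact LF.congr ((lf_s h1 h3 m).add (LF.const 2)) (fun x a => (thePrm_J _ _ _).symm)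
  · intro m
    exact LF.congr ((LF.log2 ((lf_s h1 h3 m).add (LF.const 2))).add (LF.const 5))
      (fun x a => (thePrm_D _ _ _).symm)
  · intro m
    exact LF.congr ((hQ m).div (lf_pow_hh h1 h2 h3 h4 h5 h6 6 m))
      (fun x a => (thePrm_tau _ _ _).symm)
  · intro m
    exact LF.congr (lf_two_pow ((lf_s h1 h3 m).add (LF.const 1)) _ hs)
      (fun x a => (thePrm_n _ _ _).symm)
  · intro m
    refine LF.congr (lf_two_pow (m := m)
      (f := fun x => 2 * (Nat.sqrt (lam x.length + g x.length) + 1))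
      ((LF.const 2).mul ((lf_s h1 h3 m).add (LF.const 1)))
      (2 * (2 * c + 1)) (fun x => ?_)) (fun x a => ?_)
    · have := hs x
      nlinarith
    · rw [thePrm_s]
  · intro m
    refine LF.congr (lf_two_pow ((LF.log2 ((lf_s h1 h3 m).add (LF.const 2))).add (LF.const 5))
      (2 * c + 6) (fun x => ?_)) (fun x a => ?_)
    · have h7 := hs x
      have h8 := log_le_r (lam x.length) (g x.length)
      nlinarith [Nat.zero_le (Nat.log 2 (x.length + 2))]
    · rw [thePrm_D]
  · intro m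
    refine LF.congr (lf_two_pow (m := m)
      (f := fun x => (Nat.sqrt (lam x.length + g x.length) + 1) *
        (Nat.sqrt (lam x.length + g x.length) + 1)) (((lf_s h1 h3 m).add (LF.const 1)).mul
      ((lf_s h1 h3 m).add (LF.const 1))) _ hsq) (fun x a => ?_)
    show _ = (thePrm (lam x.length) (W x.length) (g x.length)).n ^
      (thePrm (lam x.length) (W x.length) (g x.length)).s
    rw [thePrm_n, thePrm_s, ← pow_mul]
  · intro m
    exact LF.congr (lf_pow_hh h1 h2 h3 h4 h5 h6 60 m) (fun x a => (theX_eq _ _ _).symm)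

end comp

/-- MODULE N. -/
theorem modN : ModN := by
  refine ⟨fun lam W g => ⟨num lam W g, big lam W g, lt_sq lam W g, budget1 lam W g,
    budget2 lam W g, budget3 lam W g, budget4 lam W g, final_err lam W g⟩, ?_, ?_⟩
  · intro lam W g c _ h2 _
    exact size lam W g c h2
  · intro lam W g h1 h2 h3 c h4 h5 h6
    exact comp_thm h1 h2 h3 h4 h5 h6

end Vale.Agent.P313.H146

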