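import Vale.Agent.P313.H463.MW.MStmt

/-!
MODULE N, part 1: numerical facts about the parameters.
-/

namespace Vale.Agent.P313.H146

open Finset MW

theorem s_lt_two_pow (a : ℕ) : a + 1 ≤ 2 ^ a := Nat.lt_two_pow_self

theorem two_pow_log_le (s : ℕ) : 2 ^ Nat.log 2 (s + 1) ≤ s + 1 := Nat.pow_log_le_self 2 (by omega)

theorem lt_two_pow_log (s : ℕ) : s + 1 < 2 * 2 ^ Nat.log 2 (s + 1) := by
  have := Nat.lt_pow_succ_log_self (b := 2) (by norm_num) (s + 1)
  rwa [pow_succ, mul_comm] at this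

theorem err_aux (W r g : ℕ) (h : g < (r + 1) ^ 2) :
    1 + (2 + (r + 1)) * (r + 1) + (W + 1) + (g + 1) < 40 * (W + (r + 1) + 10) * (r + 2) := by
  nlinarith [Nat.zero_le (W * r), Nat.zero_le (r * r)]

section basic

variable (lam W g : ℕ)

/-- The unit. -/
def hh (lam W g : ℕ) : ℕ := W + (Nat.sqrt (lam + g) + 1) + 10

theorem thePrm_s : (thePrm lam W g).s = Nat.sqrt (lam + g) + 1 := rfl
theorem thePrm_N : (thePrm lam W g).N = 2 ^ W + 1 := rfl
theorem thePrm_Q : (thePrm lam W g).Q = nxp (2 ^ (40 * hh lam W g)) := by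
  simp only [thePrm, hh]
theorem thePrm_J : (thePrm lam W g).J = Nat.sqrt (lam + g) + 2 := rfl
theorem thePrm_D : (thePrm lam W g).D = Nat.log 2 (Nat.sqrt (lam + g) + 2) + 5 := rfl
theorem thePrm_tau : (thePrm lam W g).tau =
  nxp (2 ^ (40 * hh lam W g)) / 2 ^ (6 * hh lam W g) := by
  simp only [thePrm, hh]
theorem thePrm_n : (thePrm lam W g).n = 2 ^ (Nat.sqrt (lam + g) + 1) := rfl
theorem thePrm_LP : (thePrm lam W g).LP = 12 + 2 * (Nat.log 2 (Nat.sqrt (lam + g) + 2) + 5) := rfl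
theorem theX_eq : theX lam W g = 2 ^ (60 * hh lam W g) := rfl
theorem theM_eq : theM lam W g = 2 ^ (60 * hh lam W g *
    (30 * ((thePrm lam W g).s * (thePrm lam W g).LP + 1))) := by
  rw [pow_mul]; rfl

theorem hh_ge : 11 ≤ hh lam W g := by unfold hh; omega

theorem Q_spec : (thePrm lam W g).Q.Prime ∧ 2 ^ (40 * hh lam W g) ≤ (thePrm lam W g).Q ∧
    (thePrm lam W g).Q ≤ 2 ^ (40 * hh lam W g + 1) := by
  have h := nxp_spec (m := 2 ^ (40 * hh lam W g)) Nat.one_le_two_pow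
  rw [thePrm_Q, pow_succ']
  exact h

theorem N_le : (thePrm lam W g).N ≤ 2 ^ (W + 1) := by
  rw [thePrm_N, pow_succ]
  have := Nat.one_le_two_pow (n := W)
  omega

theorem log_le_r : Nat.log 2 (Nat.sqrt (lam + g) + 2) ≤ Nat.sqrt (lam + g) + 1 := by
  have h1 : Nat.log 2 (Nat.sqrt (lam + g) + 2) < Nat.sqrt (lam + g) + 2 :=
    Nat.log_lt_self 2 (by omega)
  omega

theorem num : (thePrm lam W g).Num (W + (Nat.sqrt (lam + g) + 1) + 10) := by
  obtain ⟨h1, h2, h3⟩ := Q_spec lam W g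
  refine ⟨by omega, ?_, ?_, ?_, ?_, h1, h2, h3, ?_, ?_, ?_⟩
  · rw [thePrm_s]; omega
  · rw [thePrm_s]; omega
  · rw [thePrm_N]; exact Nat.le_add_left _ _
  · exact (N_le lam W g).trans (Nat.pow_le_pow_right (by norm_num) (by omega))
  · rw [thePrm_s, thePrm_J]
  · rw [thePrm_s, thePrm_D]
    have := lt_two_pow_log (Nat.sqrt (lam + g) + 1)
    rw [pow_add]
    simp only [show Nat.sqrt (lam + g) + 1 + 1 = Nat.sqrt (lam + g) + 2 from rfl] at this ⊢
    omega
  · simp only [thePrm]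

theorem D2_le : 2 ^ (thePrm lam W g).D ≤ 2 ^ (Nat.sqrt (lam + g) + 6) := by
  rw [thePrm_D]
  exact Nat.pow_le_pow_right (by norm_num) (by have := log_le_r lam g; omega)

theorem big : (thePrm lam W g).Big (theX lam W g) := by
  obtain ⟨h1, h2, h3⟩ := Q_spec lam W g
  have h11 := hh_ge lam W g
  have h4 : (thePrm lam W g).W4 ≤ 2 ^ (2 + (Nat.sqrt (lam + g) + 2 + (W + 1))) := by
    unfold Prm.W4
    rw [thePrm_n]
    calc 4 * ((2 ^ (Nat.sqrt (lam + g) + 1) + 1) * (thePrm lam W g).N)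
        ≤ 2 ^ 2 * (2 ^ (Nat.sqrt (lam + g) + 2) * 2 ^ (W + 1)) := by
          refine Nat.mul_le_mul_left _ (Nat.mul_le_mul ?_ (N_le lam W g))
          rw [pow_succ _ (Nat.sqrt (lam + g) + 1)]
          have := Nat.one_le_two_pow (n := Nat.sqrt (lam + g) + 1)
          omega
      _ = 2 ^ (2 + (Nat.sqrt (lam + g) + 2 + (W + 1))) := by rw [← pow_add, ← pow_add]
  refine ⟨h1.two_le, ?_, ?_, ?_, ?_, ?_, ?_, ?_⟩
  · rw [thePrm_N]; exact Nat.le_add_left _ _
  · rw [thePrm_J]; omega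
  · rw [theX_eq]
    exact lt_of_le_of_lt h3 (Nat.pow_lt_pow_right (by norm_num) (by omega))
  · rw [theX_eq, thePrm_s]
    exact Nat.pow_le_pow_right (by norm_num) (by unfold hh; omega)
  · rw [theX_eq]
    exact h4.trans (Nat.pow_le_pow_right (by norm_num) (by unfold hh; omega))
  · exact h4.trans ((Nat.pow_le_pow_right (by norm_num) (by unfold hh; omega)).trans h2)
  · unfold Prm.F
    rw [theX_eq, thePrm_J]
    calc (Nat.sqrt (lam + g) + 2 + 4) * 2 ^ (thePrm lam W g).D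
        ≤ 2 ^ (Nat.sqrt (lam + g) + 2 + 4) * 2 ^ (Nat.sqrt (lam + g) + 6) :=
          Nat.mul_le_mul Nat.lt_two_pow_self.le (D2_le lam W g)
      _ = 2 ^ (Nat.sqrt (lam + g) + 2 + 4 + (Nat.sqrt (lam + g) + 6)) := by rw [← pow_add]
      _ < 2 ^ (60 * hh lam W g) := Nat.pow_lt_pow_right (by norm_num) (by unfold hh; omega)

theorem lt_sq : lam + g < (thePrm lam W g).s ^ 2 := by
  rw [thePrm_s, sq]
  exact Nat.lt_succ_sqrt (lam + g)

theorem LP_le : (thePrm lam W g).LP ≤ 24 + 2 * Nat.sqrt (lam + g) := by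
  rw [thePrm_LP]
  have := log_le_r lam g
  omega

theorem budget1 : (thePrm lam W g).n ^ (thePrm lam W g).s *
      (theX lam W g ^ 8) ^ (3 * ((thePrm lam W g).s * (thePrm lam W g).LP) + 3) ≤
      theM lam W g := by
  rw [theM_eq, theX_eq, thePrm_n]
  set t := (thePrm lam W g).s * (thePrm lam W g).LP with ht
  rw [← pow_mul, ← pow_mul, ← pow_mul, ← pow_add]
  refine Nat.pow_le_pow_right (by norm_num) ?_
  have h1 : (Nat.sqrt (lam + g) + 1) * (thePrm lam W g).s ≤ hh lam W g * (t + 1) := by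
    refine Nat.mul_le_mul (by unfold hh; omega) ?_
    have : (thePrm lam W g).s * 1 ≤ t := Nat.mul_le_mul_left _ (by rw [thePrm_LP]; omega)
    omega
  nlinarith [h1, Nat.zero_le (hh lam W g * t), Nat.zero_le (hh lam W g)]

theorem budget2 : RecD.tt (theX lam W g ^ 4) ((thePrm lam W g).s * (thePrm lam W g).LP) ≤
    theM lam W g := by
  rw [theM_eq, theX_eq]
  set t := (thePrm lam W g).s * (thePrm lam W g).LP with ht
  have h1 := RecD.tt_le ((2 ^ (60 * hh lam W g)) ^ 4) t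
  have h11 := hh_ge lam W g
  have h2 : (2 ^ (60 * hh lam W g)) ^ 4 + 2 ≤ 2 ^ (60 * hh lam W g * 4 + 1) := by
    rw [← pow_mul, pow_succ]
    have : 2 ^ 1 ≤ 2 ^ (60 * hh lam W g * 4) := Nat.pow_le_pow_right (by norm_num) (by omega)
    omega
  calc RecD.tt ((2 ^ (60 * hh lam W g)) ^ 4) t
      ≤ 2 * ((2 ^ (60 * hh lam W g)) ^ 4 + 2) ^ t := by omega
    _ ≤ 2 * (2 ^ (60 * hh lam W g * 4 + 1)) ^ t :=
        Nat.mul_le_mul_left _ (Nat.pow_le_pow_left h2 t)
    _ = 2 ^ ((60 * hh lam W g * 4 + 1) * t + 1) := by rw [← pow_mul, pow_succ]; ring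
    _ ≤ 2 ^ (60 * hh lam W g * (30 * (t + 1))) := by
        refine Nat.pow_le_pow_right (by norm_num) ?_
        nlinarith [Nat.mul_le_mul_right t h11]

theorem budget3 : (thePrm lam W g).Q ^ (4 * (thePrm lam W g).s + 4) ≤ theM lam W g := by
  obtain ⟨h1, h2, h3⟩ := Q_spec lam W g
  have h11 := hh_ge lam W g
  rw [theM_eq]
  refine (Nat.pow_le_pow_left h3 _).trans ?_
  rw [← pow_mul]
  refine Nat.pow_le_pow_right (by norm_num) ?_
  set t := (thePrm lam W g).s * (thePrm lam W g).LP with ht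
  have h4 : (thePrm lam W g).s * 1 ≤ t := Nat.mul_le_mul_left _ (by rw [thePrm_LP]; omega)
  calc (40 * hh lam W g + 1) * (4 * (thePrm lam W g).s + 4)
      ≤ (60 * hh lam W g) * (30 * (t + 1)) := Nat.mul_le_mul (by omega) (by omega)

theorem budget4 : (thePrm lam W g).s * (thePrm lam W g).LP < theX lam W g ^ 8 := by
  rw [theX_eq, thePrm_s, ← pow_mul]
  have h1 := LP_le lam W g
  have h2 : (24 + 2 * Nat.sqrt (lam + g)) ≤ 2 ^ (24 + 2 * Nat.sqrt (lam + g)) :=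
    Nat.lt_two_pow_self.le
  have h3 : Nat.sqrt (lam + g) + 1 ≤ 2 ^ (Nat.sqrt (lam + g) + 1) := Nat.lt_two_pow_self.le
  calc (Nat.sqrt (lam + g) + 1) * (thePrm lam W g).LP
      ≤ 2 ^ (Nat.sqrt (lam + g) + 1) * 2 ^ (24 + 2 * Nat.sqrt (lam + g)) :=
        Nat.mul_le_mul h3 (h1.trans h2)
    _ = 2 ^ (Nat.sqrt (lam + g) + 1 + (24 + 2 * Nat.sqrt (lam + g))) := by rw [← pow_add]
    _ < 2 ^ (60 * hh lam W g * 8) := Nat.pow_lt_pow_right (by norm_num) (by unfold hh; omega)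

theorem final_err : 2 * (4 * ((thePrm lam W g).n : ℚ)) ^ (thePrm lam W g).s *
    (thePrm lam W g).N / ((thePrm lam W g).Q : ℚ) ^ (thePrm lam W g).J < 1 / 2 ^ (g + 1) := by
  obtain ⟨h1, h2, h3⟩ := Q_spec lam W g
  have hQ0 : (0 : ℚ) < (thePrm lam W g).Q := by exact_mod_cast h1.pos
  rw [div_lt_div_iff₀ (pow_pos hQ0 _) (by positivity), one_mul]
  have h4 : (2 * (4 * (thePrm lam W g).n) ^ (thePrm lam W g).s *
      (thePrm lam W g).N) * 2 ^ (g + 1) < (thePrm lam W g).Q ^ (thePrm lam W g).J := by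
    have h5 : (2 * (4 * (thePrm lam W g).n) ^ (thePrm lam W g).s *
      (thePrm lam W g).N) * 2 ^ (g + 1) ≤
        2 ^ (1 + (2 + (Nat.sqrt (lam + g) + 1)) * (Nat.sqrt (lam + g) + 1) + (W + 1) + (g + 1)) := by
      rw [pow_add _ _ (g + 1), pow_add _ _ (W + 1), pow_add _ 1, pow_one, pow_mul, pow_add _ 2]
      refine Nat.mul_le_mul_right _ (Nat.mul_le_mul ?_ (N_le lam W g))
      rw [thePrm_n, thePrm_s]
      norm_num
    refine lt_of_le_of_lt h5 (lt_of_lt_of_le (b := (2 ^ (40 * hh lam W g)) ^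
      (thePrm lam W g).J) ?_ (Nat.pow_le_pow_left h2 _))
    rw [← pow_mul, thePrm_J]
    refine Nat.pow_lt_pow_right (by norm_num) ?_
    have h6 : lam + g < (Nat.sqrt (lam + g) + 1) ^ 2 := lt_sq lam W g
    have h7 : hh lam W g = W + (Nat.sqrt (lam + g) + 1) + 10 := rfl
    rw [h7]
    exact err_aux _ _ _ (by omega)
  exact_mod_cast h4

end basic

end Vale.Agent.P313.H146
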