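import Vale.Agent.P313.H146.ModN1

/-!
MODULE N, part 2: the size of the budget.
-/

namespace Vale.Agent.P313.H146

open Finset MW

/-- The exponent of the budget. -/
def ee (lam W g : ℕ) : ℕ := 60 * hh lam W g *
  (30 * ((Nat.sqrt (lam + g) + 1) * (12 + 2 * (Nat.log 2 (Nat.sqrt (lam + g) + 2) + 5)) + 1))

theorem theM_ee (lam W g : ℕ) : theM lam W g = 2 ^ ee lam W g := theM_eq lam W g

theorem ee_pos (lam W g : ℕ) : 1 ≤ ee lam W g := by
  have := hh_ge lam W g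
  unfold ee
  nlinarith [Nat.zero_le (hh lam W g * ((Nat.sqrt (lam + g) + 1) *
    (12 + 2 * (Nat.log 2 (Nat.sqrt (lam + g) + 2) + 5))))]

theorem log_budget (lam W g n : ℕ) :
    Nat.log 2 (n + theM lam W g + 2) ≤ Nat.log 2 (n + 2) + ee lam W g := by
  have h1 : n + theM lam W g + 2 < 2 ^ (Nat.log 2 (n + 2) + ee lam W g + 1) := by
    rw [theM_ee]
    have h2 : n + 2 < 2 ^ (Nat.log 2 (n + 2) + 1) := Nat.lt_pow_succ_log_self (by norm_num) _
    have h3 : 2 ^ 1 ≤ 2 ^ ee lam W g := Nat.pow_le_pow_right (by norm_num) (ee_pos lam W g)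
    rw [show Nat.log 2 (n + 2) + ee lam W g + 1 = (Nat.log 2 (n + 2) + 1) + ee lam W g by ring,
      pow_add]
    set M := 2 ^ ee lam W g
    set T := 2 ^ (Nat.log 2 (n + 2) + 1)
    have h4 : n + 3 ≤ T := h2
    calc n + M + 2 < (n + 3) * M := by nlinarith
      _ ≤ T * M := Nat.mul_le_mul_right _ h4
  exact Nat.lt_succ_iff.1 (Nat.log_lt_of_lt_pow (by omega) h1)

theorem ee_le (lam W g : ℕ) : (ee lam W g : ℝ) ≤ 2073600 * ((W : ℝ) + 11 +
    ((lam : ℝ) + g + Real.sqrt ((lam : ℝ) + g) * W) * Real.logb 2 ((lam : ℝ) + g + 2)) ∧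
    (1 ≤ lam + g → (ee lam W g : ℝ) ≤ 2073600 *
    (((lam : ℝ) + g + Real.sqrt ((lam : ℝ) + g) * W) * Real.logb 2 ((lam : ℝ) + g + 2))) := by
  set r := Nat.sqrt (lam + g) with hr
  set m : ℝ := (lam : ℝ) + g with hm
  have hm0 : 0 ≤ m := by positivity
  set l := Real.logb 2 (m + 2) with hl
  have hl1 : 1 ≤ l := by
    rw [hl, Real.le_logb_iff_rpow_le (by norm_num) (by positivity)]
    rw [Real.rpow_one]; linarith
  have hlog : (Nat.log 2 (r + 2) : ℝ) ≤ l := by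
    have h1 : Nat.log 2 (r + 2) ≤ Nat.log 2 (lam + g + 2) :=
      Nat.log_mono_right (by have := Nat.sqrt_le_self (lam + g); omega)
    have h2 : (Nat.log 2 (lam + g + 2) : ℝ) ≤ Real.logb 2 ((lam + g + 2 : ℕ) : ℝ) :=
      Real.natLog_le_logb _ _
    have h3 : ((lam + g + 2 : ℕ) : ℝ) = m + 2 := by push_cast; rfl
    rw [h3] at h2
    exact le_trans (by exact_mod_cast h1) h2
  have hrho : (r : ℝ) ≤ Real.sqrt m := by
    have := Real.nat_sqrt_le_real_sqrt (a := lam + g)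
    rw [hr, hm]
    push_cast at this
    exact this
  set ρ := Real.sqrt m with hρ
  have hρ0 : 0 ≤ ρ := Real.sqrt_nonneg _
  have hρ2 : ρ * ρ = m := Real.mul_self_sqrt hm0
  have hW0 : (0 : ℝ) ≤ W := Nat.cast_nonneg _
  have hr0 : (0 : ℝ) ≤ r := Nat.cast_nonneg _
  have hee : (ee lam W g : ℝ) = 1800 * ((W : ℝ) + r + 11) *
      (((r : ℝ) + 1) * (22 + 2 * (Nat.log 2 (r + 2) : ℝ)) + 1) := by
    unfold ee hh
    push_cast
    ring
  have h22 : (22 + 2 * (Nat.log 2 (r + 2) : ℝ)) ≤ 24 * l := by linarith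
  have h220 : (0 : ℝ) ≤ 22 + 2 * (Nat.log 2 (r + 2) : ℝ) := by positivity
  have h1 : ((r : ℝ) + 1) * (22 + 2 * (Nat.log 2 (r + 2) : ℝ)) + 1 ≤ 48 * (((r : ℝ) + 1) * l) := by
    have h2 : ((r : ℝ) + 1) * (22 + 2 * (Nat.log 2 (r + 2) : ℝ)) ≤ ((r : ℝ) + 1) * (24 * l) :=
      mul_le_mul_of_nonneg_left h22 (by positivity)
    have h3 : 1 * 1 ≤ ((r : ℝ) + 1) * l := mul_le_mul (by linarith) hl1 zero_le_one (by positivity)
    nlinarith
  have h2 : (ee lam W g : ℝ) ≤ 86400 * (((W : ℝ) + r + 11) * (((r : ℝ) + 1) * l)) := by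
    rw [hee]
    have h3 : (0 : ℝ) ≤ 1800 * ((W : ℝ) + r + 11) := by positivity
    calc _ ≤ 1800 * ((W : ℝ) + r + 11) * (48 * (((r : ℝ) + 1) * l)) :=
          mul_le_mul_of_nonneg_left h1 h3
      _ = _ := by ring
  have key : 1 ≤ lam + g → (ee lam W g : ℝ) ≤ 2073600 * ((m + ρ * W) * l) := by
    intro h1m
    have hm1 : 1 ≤ m := by rw [hm]; exact_mod_cast h1m
    have hρ1 : 1 ≤ ρ := by
      rw [hρ]; exact Real.one_le_sqrt.2 hm1
    have h3 : ((W : ℝ) + r + 11) * ((r : ℝ) + 1) ≤ 24 * (m + ρ * W) := by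
      have h4 : (r : ℝ) + 1 ≤ 2 * ρ := by linarith
      have h5 : (W : ℝ) + r + 11 ≤ W + 12 * ρ := by linarith
      calc ((W : ℝ) + r + 11) * ((r : ℝ) + 1) ≤ (W + 12 * ρ) * (2 * ρ) :=
            mul_le_mul h5 h4 (by positivity) (by positivity)
        _ = 2 * (ρ * W) + 24 * (ρ * ρ) := by ring
        _ ≤ 24 * (m + ρ * W) := by
            rw [hρ2]; nlinarith [mul_nonneg hρ0 hW0]
    calc (ee lam W g : ℝ) ≤ 86400 * (((W : ℝ) + r + 11) * (((r : ℝ) + 1) * l)) := h2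
      _ = 86400 * ((((W : ℝ) + r + 11) * ((r : ℝ) + 1)) * l) := by ring
      _ ≤ 86400 * ((24 * (m + ρ * W)) * l) := by
          refine mul_le_mul_of_nonneg_left (mul_le_mul_of_nonneg_right h3 (by linarith))
            (by norm_num)
      _ = 2073600 * ((m + ρ * W) * l) := by ring
  refine ⟨?_, key⟩
  rcases Nat.eq_zero_or_pos (lam + g) with h0 | h0
  · have hr1 : r = 0 := by rw [hr, h0]; rfl
    have hl2 : l = 1 := by
      have hm2 : m = 0 := by
        rw [hm]; exact_mod_cast h0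
      rw [hl, hm2, zero_add]
      exact Real.logb_self_eq_one (by norm_num)
    rw [hr1, hl2] at h2
    have h3 : 0 ≤ (m + ρ * W) * l := by rw [hl2]; positivity
    have h4 : (ee lam W g : ℝ) ≤ 86400 * ((W : ℝ) + 11) := by
      refine h2.trans (le_of_eq ?_)
      push_cast; ring
    nlinarith
  · refine (key h0).trans ?_
    nlinarith

theorem size (lam W g : ℕ → ℕ) (c : ℕ) (hW : ∀ n, W n ≤ c * Nat.log 2 (n + 2)) :
    ∃ c' : ℕ, ∀ n, (Nat.log 2 (n + theM (lam n) (W n) (g n) + 2) : ℝ) ≤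
      c' * theS lam W g n + c' := by
  refine ⟨2073600 * (c + 11) + 1, fun n => ?_⟩
  have h1 : (Nat.log 2 (n + theM (lam n) (W n) (g n) + 2) : ℝ) ≤
      (Nat.log 2 (n + 2) : ℝ) + (ee (lam n) (W n) (g n) : ℝ) := by
    exact_mod_cast log_budget (lam n) (W n) (g n) n
  have hL : (Nat.log 2 (n + 2) : ℝ) ≤ Real.logb 2 ((n : ℝ) + 2) := by
    have := Real.natLog_le_logb (n + 2) 2
    push_cast at this
    exact this
  have h2 := (ee_le (lam n) (W n) (g n)).1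
  have h3 : (W n : ℝ) ≤ c * Real.logb 2 ((n : ℝ) + 2) := by
    calc (W n : ℝ) ≤ ((c * Nat.log 2 (n + 2) : ℕ) : ℝ) := by exact_mod_cast hW n
      _ = c * (Nat.log 2 (n + 2) : ℝ) := by push_cast; rfl
      _ ≤ _ := mul_le_mul_of_nonneg_left hL (Nat.cast_nonneg _)
  unfold theS
  set L := Real.logb 2 ((n : ℝ) + 2)
  have hL0 : 0 ≤ L := le_trans (Nat.cast_nonneg _) hL
  have hl0 : 0 ≤ Real.logb 2 ((lam n : ℝ) + g n + 2) :=
    Real.logb_nonneg (by norm_num) (by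
      have : (0 : ℝ) ≤ (lam n : ℝ) + g n := by positivity
      linarith)
  set B := ((lam n : ℝ) + g n + Real.sqrt ((lam n : ℝ) + g n) * W n) *
    Real.logb 2 ((lam n : ℝ) + g n + 2)
  have hB0 : 0 ≤ B := mul_nonneg (by positivity) hl0
  have hc0 : (0 : ℝ) ≤ c := Nat.cast_nonneg _
  push_cast
  nlinarith [mul_nonneg hc0 hB0, mul_nonneg hc0 hL0]

end Vale.Agent.P313.H146
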