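import Vale.Agent.P313.H463.MW.SStmt

/-!
The result of a stage is accurate if the approximations pass the test.
-/

namespace Vale.Agent.P313.H146

open Finset Vale.Agent.P313.MW

/-! ### Codes -/

theorem sum_range_mul_aux {M : Type*} [AddCommMonoid M] (F : ℕ → M) (a b : ℕ) :
    ∑ w ∈ range (a * b), F w = ∑ y ∈ range b, ∑ x ∈ range a, F (x + a * y) := by
  induction b with
  | zero => simp
  | succ b ih =>
    rw [Nat.mul_succ, Finset.sum_range_add, ih, sum_range_succ]
    congr 1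
    refine sum_congr rfl fun x _ => ?_
    rw [add_comm]

theorem sum_cod {M : Type*} [AddCommMonoid M] (F : ℕ → M) (n N : ℕ) :
    ∑ w ∈ range (4 * ((n + 1) * N)), F w =
      ∑ u ∈ range N, ∑ i ∈ range (n + 1), ∑ sg ∈ range 2, ∑ ph ∈ range 2, F (cod n ph sg i u) := by
  have h4 : 4 * ((n + 1) * N) = 2 * (2 * ((n + 1) * N)) := by ring
  rw [h4, sum_range_mul_aux, sum_range_mul_aux, sum_range_mul_aux]
  rfl

section decode

variable {n ph sg i u : ℕ}

theorem cod_ph (hp : ph < 2) : cod n ph sg i u % 2 = ph := by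
  unfold cod
  generalize sg + 2 * (i + (n + 1) * u) = z
  omega

theorem cod_div (hp : ph < 2) : cod n ph sg i u / 2 = sg + 2 * (i + (n + 1) * u) := by
  unfold cod
  generalize sg + 2 * (i + (n + 1) * u) = z
  omega

theorem cod_sg (hp : ph < 2) (hs : sg < 2) : cod n ph sg i u / 2 % 2 = sg := by
  rw [cod_div hp]
  generalize i + (n + 1) * u = z
  omega

theorem cod_div2 (hp : ph < 2) (hs : sg < 2) : cod n ph sg i u / 2 / 2 = i + (n + 1) * u := by
  rw [cod_div hp]
  generalize i + (n + 1) * u = z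
  omega

theorem cod_i (hp : ph < 2) (hs : sg < 2) (hi : i ≤ n) : cod n ph sg i u / 2 / 2 % (n + 1) = i := by
  rw [cod_div2 hp hs, Nat.add_mul_mod_self_left, Nat.mod_eq_of_lt (by omega)]

theorem cod_u (hp : ph < 2) (hs : sg < 2) (hi : i ≤ n) : cod n ph sg i u / 2 / 2 / (n + 1) = u := by
  rw [cod_div2 hp hs, Nat.add_mul_div_left _ _ (by omega), Nat.div_eq_of_lt (by omega), zero_add]

end decode

theorem Xe_cod {N n Q J : ℕ} {cn : ℕ → ℕ → ℕ → ℕ → ℕ} {mm : ℕ → ℕ → ℕ → ℕ}
    {ph sg i u ph' sg' j v : ℕ} (hp : ph < 2) (hs : sg < 2) (hi : i ≤ n)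
    (hp' : ph' < 2) (hs' : sg' < 2) (hj : j ≤ n) :
    Xe N n Q J cn mm (cod n ph sg i u) (cod n ph' sg' j v) =
      Xd N Q J cn mm ph sg i u ph' sg' j v := by
  unfold Xe
  rw [cod_ph hp, cod_sg hp hs, cod_i hp hs hi, cod_u hp hs hi, cod_ph hp', cod_sg hp' hs',
    cod_i hp' hs' hj, cod_u hp' hs' hj]

/-- Codes are small. -/
theorem cod_lt {n N ph sg i u : ℕ} (hp : ph < 2) (hs : sg < 2) (hi : i ≤ n) (hu : u < N) :
    cod n ph sg i u < 4 * ((n + 1) * N) := by
  unfold cod
  have h1 : i + (n + 1) * u < (n + 1) * N := by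
    calc i + (n + 1) * u < (n + 1) + (n + 1) * u := by omega
      _ = (n + 1) * (u + 1) := by ring
      _ ≤ (n + 1) * N := Nat.mul_le_mul_left _ hu
  generalize i + (n + 1) * u = z at h1 ⊢
  omega

/-- Every small number is a code. -/
theorem exists_cod {n N w : ℕ} (hw : w < 4 * ((n + 1) * N)) :
    ∃ ph sg i u, ph < 2 ∧ sg < 2 ∧ i ≤ n ∧ u < N ∧ w = cod n ph sg i u := by
  refine ⟨w % 2, w / 2 % 2, w / 2 / 2 % (n + 1), w / 2 / 2 / (n + 1), by omega, by omega, ?_, ?_, ?_⟩
  · exact Nat.lt_succ_iff.mp (Nat.mod_lt _ (by omega))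
  · rw [Nat.div_lt_iff_lt_mul (by omega)]
    have : N * (n + 1) = (n + 1) * N := by ring
    rw [this]
    generalize (n + 1) * N = z at hw ⊢
    omega
  · unfold cod
    rw [Nat.mod_add_div]
    omega

/-! ### Signs -/

/-- The sign. -/
def sgn (sg : ℕ) : ℚ := if sg = 0 then 1 else -1

theorem sum_two {M : Type*} [AddCommMonoid M] (F : ℕ → M) : ∑ x ∈ range 2, F x = F 0 + F 1 := by
  rw [sum_range_succ, sum_range_one]

section stage

variable (N n Q J : ℕ) (cn : ℕ → ℕ → ℕ → ℕ → ℕ) (mm : ℕ → ℕ → ℕ → ℕ)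

/-- The error matrix. -/
def Ee (i j u v : ℕ) : ℚ := (Bm N cn mm i j u v : ℚ) / (Q : ℚ) ^ (J + 1) - (cn i j u v : ℚ) / Q

/-- The transfer matrix as a rational matrix. -/
def X0 (w w' : ℕ) : ℚ := (Xe N n Q J cn mm w w' : ℚ) / (Q : ℚ) ^ (J + 1)

variable {N n Q J cn mm}

theorem act0 (hQ : 0 < Q) {h : ℕ → ℚ} {y0 y1 : ℕ → ℕ → ℚ}
    (h0 : ∀ sg < 2, ∀ j ≤ n, ∀ v < N, h (cod n 0 sg j v) = sgn sg * y0 j v)
    (h1 : ∀ sg < 2, ∀ j ≤ n, ∀ v < N, h (cod n 1 sg j v) = sgn sg * y1 j v)
    {sg i u : ℕ} (hs : sg < 2) (hi : i ≤ n) :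
    ∑ w ∈ range (4 * ((n + 1) * N)), X0 N n Q J cn mm (cod n 0 sg i u) w * h w =
      sgn sg * ∑ v ∈ range N, ∑ j ∈ range (n + 1),
        ((if i < j then Ee N Q J cn mm i j u v * y0 j v else 0) +
          (if i ≤ j then (cn i j u v : ℚ) / Q * y1 j v else 0)) := by
  have hQ' : (Q : ℚ) ≠ 0 := by positivity
  rw [sum_cod, mul_sum]
  refine sum_congr rfl fun v hv => ?_
  rw [mul_sum]
  refine sum_congr rfl fun j hj => ?_
  rw [mem_range] at hv hj
  have hj' : j ≤ n := by omega
  rw [sum_two, sum_two, sum_two, h0 0 (by omega) j hj' v hv, h0 1 (by omega) j hj' v hv,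
    h1 0 (by omega) j hj' v hv, h1 1 (by omega) j hj' v hv]
  unfold X0
  rw [Xe_cod (by omega) hs hi (by omega) (by omega) hj',
    Xe_cod (by omega) hs hi (by omega) (by omega) hj',
    Xe_cod (by omega) hs hi (by omega) (by omega) hj',
    Xe_cod (by omega) hs hi (by omega) (by omega) hj']
  have hp : (Q : ℚ) ^ (J + 1) = (Q : ℚ) ^ J * Q := pow_succ _ _
  have hsg : sg = 0 ∨ sg = 1 := by omega
  unfold Xd Ee sgn
  rcases hsg with rfl | rfl
  · by_cases hij : i < j
    · have hij' : i ≤ j := hij.le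
      simp only [hij, hij', if_true, if_false, one_ne_zero, zero_ne_one, and_false,
        and_self]
      push_cast
      rw [hp]
      field_simp
      ring
    · by_cases hij' : i ≤ j
      · simp only [hij, hij', if_true, if_false, one_ne_zero, zero_ne_one, and_false,
          and_self]
        push_cast
        rw [hp]
        field_simp
        ring
      · simp only [hij, hij', if_true, if_false, one_ne_zero, zero_ne_one, and_false,
          and_self, false_and]
        push_cast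
        ring
  · by_cases hij : i < j
    · have hij' : i ≤ j := hij.le
      simp only [hij, hij', if_true, if_false, one_ne_zero, zero_ne_one, and_false,
        and_self]
      push_cast
      rw [hp]
      field_simp
      ring
    · by_cases hij' : i ≤ j
      · simp only [hij, hij', if_true, if_false, one_ne_zero, zero_ne_one, and_false,
          and_self]
        push_cast
        rw [hp]
        field_simp
        ring
      · simp only [hij, hij', if_true, if_false, one_ne_zero, zero_ne_one, and_false,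
          and_self, false_and]
        push_cast
        ring

theorem act1 (hQ : 0 < Q) {h : ℕ → ℚ} {sg i u : ℕ} (hs : sg < 2) (hi : i ≤ n) (hu : u < N) :
    ∑ w ∈ range (4 * ((n + 1) * N)), X0 N n Q J cn mm (cod n 1 sg i u) w * h w =
      h (cod n 1 sg i u) := by
  have hQ' : (Q : ℚ) ≠ 0 := by positivity
  rw [sum_eq_single (cod n 1 sg i u)]
  · unfold X0
    rw [Xe_cod (by omega) hs hi (by omega) hs hi]
    unfold Xd
    simp [hQ']
  · intro w hw hne
    rw [mem_range] at hw
    obtain ⟨ph', sg', j, v, hp', hs', hj, hv, rfl⟩ := exists_cod hw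
    unfold X0
    rw [Xe_cod (by omega) hs hi hp' hs' hj]
    have : ¬(ph' = 1 ∧ sg = sg' ∧ i = j ∧ u = v) := by
      rintro ⟨rfl, rfl, rfl, rfl⟩
      exact hne rfl
    unfold Xd
    simp [this]
  · intro hw
    exact absurd (mem_range.2 (cod_lt (by omega) hs hi hu)) hw

/-! ### Squaring -/

/-- The rational form of the repeated squares. -/
def Z (N n Q J : ℕ) (cn : ℕ → ℕ → ℕ → ℕ → ℕ) (mm : ℕ → ℕ → ℕ → ℕ) (d w w' : ℕ) : ℚ :=
  (sqr (4 * ((n + 1) * N)) (Xe N n Q J cn mm) d w w' : ℚ) / ((Q : ℚ) ^ (J + 1)) ^ 2 ^ d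

theorem Z_zero (w w' : ℕ) : Z N n Q J cn mm 0 w w' = X0 N n Q J cn mm w w' := by
  unfold Z X0 sqr
  simp

theorem Z_succ (d w w' : ℕ) : Z N n Q J cn mm (d + 1) w w' =
    ∑ s ∈ range (4 * ((n + 1) * N)), Z N n Q J cn mm d w s * Z N n Q J cn mm d s w' := by
  unfold Z
  rw [sqr]
  push_cast
  rw [sum_div]
  refine sum_congr rfl fun s _ => ?_
  rw [pow_succ 2 d, pow_mul, div_mul_div_comm, ← sq]

theorem Z_act (d : ℕ) (h : ℕ → ℚ) (w : ℕ) :
    ∑ w' ∈ range (4 * ((n + 1) * N)), Z N n Q J cn mm (d + 1) w w' * h w' =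
      ∑ s ∈ range (4 * ((n + 1) * N)), Z N n Q J cn mm d w s *
        ∑ w' ∈ range (4 * ((n + 1) * N)), Z N n Q J cn mm d s w' * h w' := by
  simp only [Z_succ, sum_mul, mul_sum]
  rw [sum_comm]
  simp only [mul_assoc]

/-- A fixed vector stays fixed. -/
theorem Z_fix {h : ℕ → ℚ}
    (hf : ∀ w < 4 * ((n + 1) * N),
      ∑ w' ∈ range (4 * ((n + 1) * N)), X0 N n Q J cn mm w w' * h w' = h w) (d : ℕ) :
    ∀ w < 4 * ((n + 1) * N),
      ∑ w' ∈ range (4 * ((n + 1) * N)), Z N n Q J cn mm d w w' * h w' = h w := by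
  induction d with
  | zero =>
    intro w hw
    simp only [Z_zero]
    exact hf w hw
  | succ d ih =>
    intro w hw
    rw [Z_act, ← ih w hw]
    refine sum_congr rfl fun s hs => ?_
    rw [ih s (mem_range.1 hs)]

/-- Vectors which vanish in the second phase and change the sign with the sign. -/
def Anti (N n : ℕ) (h : ℕ → ℚ) (b : ℚ) : Prop :=
  ∃ y : ℕ → ℕ → ℚ, (∀ i ≤ n, ∀ u < N, |y i u| ≤ b) ∧
    (∀ sg < 2, ∀ i ≤ n, ∀ u < N, h (cod n 0 sg i u) = sgn sg * y i u) ∧
    (∀ sg < 2, ∀ i ≤ n, ∀ u < N, h (cod n 1 sg i u) = 0)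

/-- One step makes such vectors smaller. -/
theorem Anti.step (hQ : 0 < Q) {δ : ℚ}
    (hE : ∀ i ≤ n, ∀ u < N, ∑ v ∈ range N, ∑ j ∈ range (n + 1),
      (if i < j then |Ee N Q J cn mm i j u v| else 0) ≤ δ)
    {h : ℕ → ℚ} {b : ℚ} (hb : 0 ≤ b) (hh : Anti N n h b) :
    Anti N n (fun w => ∑ w' ∈ range (4 * ((n + 1) * N)), X0 N n Q J cn mm w w' * h w') (δ * b) := by
  obtain ⟨y, hy, h0, h1⟩ := hh
  refine ⟨fun i u => ∑ v ∈ range N, ∑ j ∈ range (n + 1),
      (if i < j then Ee N Q J cn mm i j u v * y j v else 0), ?_, ?_, ?_⟩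
  · intro i hi u hu
    calc |∑ v ∈ range N, ∑ j ∈ range (n + 1), (if i < j then Ee N Q J cn mm i j u v * y j v else 0)|
        ≤ ∑ v ∈ range N, ∑ j ∈ range (n + 1),
          |(if i < j then Ee N Q J cn mm i j u v * y j v else 0)| := by
          refine (abs_sum_le_sum_abs _ _).trans (sum_le_sum fun v _ => abs_sum_le_sum_abs _ _)
      _ ≤ ∑ v ∈ range N, ∑ j ∈ range (n + 1), (if i < j then |Ee N Q J cn mm i j u v| else 0) * b := by
          refine sum_le_sum fun v hv => sum_le_sum fun j hj => ?_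
          rw [mem_range] at hv hj
          split_ifs
          · rw [abs_mul]
            exact mul_le_mul_of_nonneg_left (hy j (by omega) v hv) (abs_nonneg _)
          · simp
      _ = (∑ v ∈ range N, ∑ j ∈ range (n + 1), (if i < j then |Ee N Q J cn mm i j u v| else 0)) * b := by
          simp only [sum_mul]
      _ ≤ δ * b := mul_le_mul_of_nonneg_right (hE i hi u hu) hb
  · intro sg hs i hi u hu
    have := act0 (y0 := y) (y1 := fun _ _ => 0) (J := J) (cn := cn) (mm := mm) (u := u) hQ h0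
      (fun sg hs j hj v hv => by rw [h1 sg hs j hj v hv]; simp) hs hi
    refine this.trans ?_
    congr 1
    refine sum_congr rfl fun v _ => sum_congr rfl fun j _ => ?_
    simp
  · intro sg hs i hi u hu
    have := act1 (J := J) (cn := cn) (mm := mm) (h := h) hQ hs hi hu
    exact this.trans (h1 sg hs i hi u hu)

theorem Anti.sq_step (hQ : 0 < Q) {δ : ℚ} (hδ : 0 ≤ δ)
    (hE : ∀ i ≤ n, ∀ u < N, ∑ v ∈ range N, ∑ j ∈ range (n + 1),
      (if i < j then |Ee N Q J cn mm i j u v| else 0) ≤ δ) (d : ℕ) :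
    ∀ {h : ℕ → ℚ} {b : ℚ}, 0 ≤ b → Anti N n h b →
      Anti N n (fun w => ∑ w' ∈ range (4 * ((n + 1) * N)), Z N n Q J cn mm d w w' * h w')
        (δ ^ 2 ^ d * b) := by
  induction d with
  | zero =>
    intro h b hb hh
    simp only [Z_zero, pow_zero, pow_one]
    exact hh.step hQ hE hb
  | succ d ih =>
    intro h b hb hh
    have h1 := ih (mul_nonneg (pow_nonneg hδ _) hb) (ih hb hh)
    simp only [Z_act]
    have h2 : δ ^ 2 ^ (d + 1) * b = δ ^ 2 ^ d * (δ ^ 2 ^ d * b) := by
      rw [pow_succ 2 d, pow_mul, sq]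
      ring
    rw [h2]
    exact h1

/-! ### Products -/

variable {m : ℕ → ℕ → ℕ → ℚ}

theorem prq_left (i t : ℕ) : ∀ u < N, ∀ v < N,
    prq N m i (t + 1) u v = ∑ s ∈ range N, m i u s * prq N m (i + 1) t s v := by
  induction t with
  | zero =>
    intro u hu v hv
    simp only [prq, add_zero, ite_mul, one_mul, zero_mul, mul_ite, mul_one, mul_zero]
    rw [sum_ite_eq, sum_ite_eq']
    simp [hu, hv]
  | succ t ih =>
    intro u hu v hv
    rw [prq]
    have h1 : ∀ s ∈ range N, prq N m i (t + 1) u s * m (i + (t + 1)) s v =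
        ∑ a ∈ range N, m i u a * (prq N m (i + 1) t a s * m (i + 1 + t) s v) := by
      intro s hs
      rw [ih u hu s (mem_range.1 hs), sum_mul]
      refine sum_congr rfl fun a _ => ?_
      rw [show i + (t + 1) = i + 1 + t by ring]
      ring
    rw [sum_congr rfl h1, sum_comm]
    refine sum_congr rfl fun a _ => ?_
    rw [prq, mul_sum]

theorem prq_nonneg (hm : ∀ p a b, 0 ≤ m p a b) (i t : ℕ) : ∀ u v, 0 ≤ prq N m i t u v := by
  induction t with
  | zero =>
    intro u v
    rw [prq]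
    split_ifs <;> norm_num
  | succ t ih =>
    intro u v
    rw [prq]
    exact sum_nonneg fun s _ => mul_nonneg (ih u s) (hm _ _ _)

theorem prq_row (hm : ∀ p a b, 0 ≤ m p a b) {c : ℚ} (hc : 1 ≤ c)
    (hr : ∀ p < n, ∀ u < N, ∑ v ∈ range N, m p u v ≤ c) (i t : ℕ) :
    i + t ≤ n → ∀ u < N, ∑ v ∈ range N, prq N m i t u v ≤ c ^ t := by
  have hc0 : 0 ≤ c := by linarith
  induction t with
  | zero =>
    intro _ u hu
    simp only [prq, pow_zero]
    rw [sum_ite_eq]
    simp [hu]
  | succ t ih =>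
    intro hit u hu
    simp only [prq]
    rw [sum_comm]
    calc ∑ s ∈ range N, ∑ v ∈ range N, prq N m i t u s * m (i + t) s v
        = ∑ s ∈ range N, prq N m i t u s * ∑ v ∈ range N, m (i + t) s v := by
          simp only [mul_sum]
      _ ≤ ∑ s ∈ range N, prq N m i t u s * c := by
          refine sum_le_sum fun s hs => ?_
          exact mul_le_mul_of_nonneg_left (hr _ (by omega) s (mem_range.1 hs))
            (prq_nonneg hm _ _ _ _)
      _ = (∑ s ∈ range N, prq N m i t u s) * c := by rw [sum_mul]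
      _ ≤ c ^ t * c := mul_le_mul_of_nonneg_right (ih (by omega) u hu) hc0
      _ = c ^ (t + 1) := (pow_succ _ _).symm

theorem pow_le_two (n : ℕ) : (1 + 1 / (2 * (n : ℚ))) ^ n ≤ 2 := by
  rcases Nat.eq_zero_or_pos n with rfl | hn
  · norm_num
  have hn' : (1 : ℚ) ≤ n := by exact_mod_cast hn
  set x : ℚ := 1 / (2 * (n : ℚ)) with hx
  have hx0 : 0 < x := by positivity
  have hnx : (n : ℚ) * x = 1 / 2 := by
    rw [hx]
    field_simp
  have hx1 : x ≤ 1 / 2 := by nlinarith
  have h1 : (1 / 2 : ℚ) ≤ (1 - x) ^ n := by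
    have := one_add_mul_le_pow (a := -x) (by linarith) n
    have h2 : (1 : ℚ) + n * (-x) = 1 / 2 := by linarith
    rw [h2, ← sub_eq_add_neg] at this
    exact this
  have h3 : (1 + x) ^ n * (1 - x) ^ n ≤ 1 := by
    rw [← mul_pow]
    have h4 : (1 + x) * (1 - x) = 1 - x ^ 2 := by ring
    rw [h4]
    refine pow_le_one₀ ?_ ?_
    · nlinarith
    · nlinarith
  have h5 : 0 < (1 + x) ^ n := by positivity
  nlinarith

/-! ### The identity behind the improvement -/

/-- The products of the last matrices, column `v`. -/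
def gg (N n : ℕ) (m : ℕ → ℕ → ℕ → ℚ) (v i u : ℕ) : ℚ := prq N m i (n - i) u v

theorem gg_last (v u : ℕ) : gg N n m v n u = if u = v then 1 else 0 := by
  unfold gg
  rw [Nat.sub_self, prq]

theorem gg_step {i : ℕ} (hi : i < n) {u v : ℕ} (hu : u < N) (hv : v < N) :
    gg N n m v i u = ∑ s ∈ range N, m i u s * gg N n m v (i + 1) s := by
  unfold gg
  have h1 : n - i = n - (i + 1) + 1 := by omega
  rw [h1, prq_left _ _ u hu v hv]

theorem gg_eq (hQ : 0 < Q)
    (h0 : ∀ i ≤ n, ∀ u < N, ∀ v < N, cn i i u v = if u = v then Q else 0)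
    {i u v : ℕ} (hi : i ≤ n) (hu : u < N) (hv : v < N) :
    ∑ v' ∈ range N, ∑ j ∈ range (n + 1),
        ((if i < j then Ee N Q J cn mm i j u v' *
            gg N n (fun p a b => (mm p a b : ℚ) / (Q : ℚ) ^ J) v j v' else 0) +
          (if i ≤ j then (cn i j u v' : ℚ) / Q * (if j = n ∧ v' = v then 1 else 0) else 0)) =
      gg N n (fun p a b => (mm p a b : ℚ) / (Q : ℚ) ^ J) v i u := by
  have hQ' : (Q : ℚ) ≠ 0 := by positivity
  set g := gg N n (fun p a b => (mm p a b : ℚ) / (Q : ℚ) ^ J) v with hg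
  -- the second part
  have h2 : ∑ v' ∈ range N, ∑ j ∈ range (n + 1),
      (if i ≤ j then (cn i j u v' : ℚ) / Q * (if j = n ∧ v' = v then (1 : ℚ) else 0) else 0) =
      (cn i n u v : ℚ) / Q := by
    rw [sum_eq_single v]
    · rw [sum_eq_single n]
      · simp [hi]
      · intro j _ hj
        simp [hj]
      · intro hn
        exact absurd (mem_range.2 (by omega)) hn
    · intro v' _ hv'
      refine sum_eq_zero fun j _ => ?_
      simp [hv']
    · intro h
      exact absurd (mem_range.2 hv) h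
  -- the telescope
  set c : ℕ → ℚ := fun j => ∑ v' ∈ range N, (cn i j u v' : ℚ) / Q * g j v' with hc
  have h3 : ∀ j, i < j → j ≤ n →
      ∑ v' ∈ range N, Ee N Q J cn mm i j u v' * g j v' = c (j - 1) - c j := by
    intro j hij hj
    have h4 : ∑ v' ∈ range N, (Bm N cn mm i j u v' : ℚ) / (Q : ℚ) ^ (J + 1) * g j v' = c (j - 1) := by
      rw [hc]
      simp only
      have h5 : ∀ s ∈ range N, (cn i (j - 1) u s : ℚ) / Q * g (j - 1) s =
          ∑ v' ∈ range N, (cn i (j - 1) u s : ℚ) / Q *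
            ((mm (j - 1) s v' : ℚ) / (Q : ℚ) ^ J * g j v') := by
        intro s hs
        rw [hg, gg_step (by omega) (mem_range.1 hs) hv, mul_sum]
        rw [show j - 1 + 1 = j by omega]
      rw [sum_congr rfl h5, sum_comm]
      refine sum_congr rfl fun v' _ => ?_
      unfold Bm
      push_cast
      rw [sum_div, sum_mul]
      refine sum_congr rfl fun s _ => ?_
      rw [pow_succ]
      field_simp
    unfold Ee
    simp only [sub_mul, sum_sub_distrib]
    rw [h4]
  have h6 : ∑ v' ∈ range N, ∑ j ∈ range (n + 1),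
      (if i < j then Ee N Q J cn mm i j u v' * g j v' else 0) = c i - c n := by
    rw [sum_comm]
    have h7 : ∀ k ≤ n, i ≤ k → ∑ j ∈ range (k + 1), ∑ v' ∈ range N,
        (if i < j then Ee N Q J cn mm i j u v' * g j v' else 0) = c i - c k := by
      intro k hk hik
      induction k, hik using Nat.le_induction with
      | base =>
        rw [sub_self]
        refine sum_eq_zero fun j hj => sum_eq_zero fun v' _ => ?_
        rw [mem_range] at hj
        rw [if_neg (by omega)]
      | succ k hik ih =>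
        rw [sum_range_succ, ih (by omega)]
        have h8 : ∑ v' ∈ range N,
            (if i < k + 1 then Ee N Q J cn mm i (k + 1) u v' * g (k + 1) v' else 0) =
            c k - c (k + 1) := by
          have h9 := h3 (k + 1) (by omega) hk
          rw [Nat.add_sub_cancel] at h9
          rw [← h9]
          refine sum_congr rfl fun v' _ => ?_
          rw [if_pos (by omega)]
        rw [h8]
        ring
    exact h7 n le_rfl hi
  have h9 : c i = g i u := by
    rw [hc]
    simp only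
    rw [sum_eq_single u]
    · rw [h0 i hi u hu u hu, if_pos rfl]
      field_simp
    · intro s hs hne
      rw [h0 i hi u hu s (mem_range.1 hs), if_neg (Ne.symm hne)]
      simp
    · intro h
      exact absurd (mem_range.2 hu) h
  have h10 : c n = (cn i n u v : ℚ) / Q := by
    rw [hc]
    simp only
    rw [sum_eq_single v]
    · rw [hg, gg_last, if_pos rfl, mul_one]
    · intro s _ hne
      rw [hg, gg_last, if_neg hne, mul_zero]
    · intro h
      exact absurd (mem_range.2 hv) h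
  simp only [sum_add_distrib]
  rw [h6, h2, h9, h10]
  ring

end stage

/-! ### The result -/

/-- The last digits: truncation. -/
theorem trunc {A B K J Q : ℕ} {G e : ℚ} (hQ4 : 4 ≤ Q) (hJK : J ≤ K) (hG0 : 0 ≤ G) (hG2 : G ≤ 2)
    (he1 : e ≤ 1) (h : |((A : ℚ) - B) / (Q : ℚ) ^ K - G| ≤ e) :
    |(((A - B) / Q ^ (K - J) % Q ^ (J + 1) : ℕ) : ℚ) / (Q : ℚ) ^ J - G| ≤ e + 1 / (Q : ℚ) ^ J := by
  have hQ : 0 < Q := by omega
  have hQq : (0 : ℚ) < Q := by exact_mod_cast hQ
  have hQJ : (0 : ℚ) < (Q : ℚ) ^ J := by positivity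
  have hQJ1 : 0 < 1 / (Q : ℚ) ^ J := by positivity
  have hh := abs_le.1 h
  rcases le_or_gt A B with hAB | hAB
  · rw [Nat.sub_eq_zero_of_le hAB, Nat.zero_div, Nat.zero_mod]
    have hle : ((A : ℚ) - B) / (Q : ℚ) ^ K ≤ 0 := by
      apply div_nonpos_of_nonpos_of_nonneg
      · have : (A : ℚ) ≤ B := by exact_mod_cast hAB
        linarith
      · positivity
    rw [Nat.cast_zero, zero_div, zero_sub, abs_neg, abs_of_nonneg hG0]
    linarith [hh.1, hh.2]
  · set F := (A - B) / Q ^ (K - J) with hF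
    have hPow : (Q : ℚ) ^ K = (Q : ℚ) ^ (K - J) * (Q : ℚ) ^ J := by
      rw [← pow_add]
      congr 1
      omega
    have hKJ : (0 : ℚ) < (Q : ℚ) ^ (K - J) := by positivity
    have hcast : ((A - B : ℕ) : ℚ) = (A : ℚ) - B := by
      push_cast [hAB.le]
      ring
    have f1 : (F : ℚ) * (Q : ℚ) ^ (K - J) ≤ (A : ℚ) - B := by
      rw [← hcast]
      exact_mod_cast Nat.div_mul_le_self _ _
    have f2 : (A : ℚ) - B ≤ ((F : ℚ) + 1) * (Q : ℚ) ^ (K - J) := by
      rw [← hcast]
      have := Nat.lt_div_mul_add (a := A - B) (b := Q ^ (K - J)) (by positivity)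
      have h' : A - B ≤ (F + 1) * Q ^ (K - J) := by
        rw [add_mul, one_mul]
        exact this.le
      exact_mod_cast h'
    set V := ((A : ℚ) - B) / (Q : ℚ) ^ K with hV
    have f3 : (F : ℚ) / (Q : ℚ) ^ J ≤ V := by
      rw [hV, hPow, div_le_div_iff₀ hQJ (by positivity), ← mul_assoc]
      exact mul_le_mul_of_nonneg_right f1 hQJ.le
    have f4 : V ≤ (F : ℚ) / (Q : ℚ) ^ J + 1 / (Q : ℚ) ^ J := by
      rw [← add_div, hV, hPow, div_le_div_iff₀ (by positivity) hQJ, ← mul_assoc]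
      exact mul_le_mul_of_nonneg_right f2 hQJ.le
    have f5 : V < 4 := by linarith [hh.1, hh.2]
    have f6 : F < Q ^ (J + 1) := by
      have h1 : (F : ℚ) / (Q : ℚ) ^ J < 4 := by linarith
      rw [div_lt_iff₀ hQJ] at h1
      have h2 : (F : ℚ) < (Q : ℚ) ^ (J + 1) := by
        have h3 : (4 : ℚ) ≤ Q := by exact_mod_cast hQ4
        rw [pow_succ, mul_comm]
        exact h1.trans_le (mul_le_mul_of_nonneg_right h3 hQJ.le)
      exact_mod_cast h2
    rw [Nat.mod_eq_of_lt f6, abs_le]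
    constructor <;> linarith [hh.1, hh.2]

theorem modS : ModS := by
  intro N n Q J D tau cn mm δ hN hQ4 hδ h0 hok hrow hδ' h2δ u hu v hv
  have hQ : 0 < Q := by omega
  have hQq : (0 : ℚ) < Q := by exact_mod_cast hQ
  have hQJ : (0 : ℚ) < (Q : ℚ) ^ J := by positivity
  set m : ℕ → ℕ → ℕ → ℚ := fun p a b => (mm p a b : ℚ) / (Q : ℚ) ^ J with hm
  have hmn : ∀ p a b, 0 ≤ m p a b := fun p a b => by rw [hm]; positivity
  have hc1 : (1 : ℚ) ≤ 1 + 1 / (2 * (n : ℚ)) := by
    have : (0 : ℚ) ≤ 1 / (2 * (n : ℚ)) := by positivity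
    linarith
  have hr : ∀ p < n, ∀ u < N, ∑ v ∈ range N, m p u v ≤ 1 + 1 / (2 * (n : ℚ)) := by
    intro p hp a ha
    rw [hm]
    simp only
    rw [← sum_div]
    exact hrow p hp a ha
  -- bounds for the products
  have hg2 : ∀ i ≤ n, ∀ a < N, ∀ b < N, |gg N n m b i a| ≤ 2 := by
    intro i hi a ha b hb
    unfold gg
    rw [abs_of_nonneg (prq_nonneg hmn _ _ _ _)]
    calc prq N m i (n - i) a b ≤ ∑ b ∈ range N, prq N m i (n - i) a b :=
          single_le_sum (f := fun b => prq N m i (n - i) a b)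
            (fun b _ => prq_nonneg hmn _ _ _ _) (mem_range.2 hb)
      _ ≤ (1 + 1 / (2 * (n : ℚ))) ^ (n - i) := prq_row hmn hc1 hr i (n - i) (by omega) a ha
      _ ≤ (1 + 1 / (2 * (n : ℚ))) ^ n := pow_le_pow_right₀ hc1 (by omega)
      _ ≤ 2 := pow_le_two n
  -- the error matrix is small
  have hEe : ∀ i j, i < j → j ≤ n → ∀ a < N, ∀ b < N, |Ee N Q J cn mm i j a b| ≤ (tau + 1) / Q := by
    intro i j hij hj a ha b hb
    obtain ⟨h1, h2⟩ := hok i j hij hj a ha b hb
    unfold Ee
    set B := Bm N cn mm i j a b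
    have hfl : (B / Q ^ J) * Q ^ J ≤ B := Nat.div_mul_le_self _ _
    have hfl2 : B < (B / Q ^ J + 1) * Q ^ J := by
      have := Nat.lt_div_mul_add (a := B) (b := Q ^ J) (by positivity)
      linarith
    have h3 : ((B / Q ^ J : ℕ) : ℚ) * (Q : ℚ) ^ J ≤ B := by exact_mod_cast hfl
    have h4 : (B : ℚ) < (((B / Q ^ J : ℕ) : ℚ) + 1) * (Q : ℚ) ^ J := by exact_mod_cast hfl2
    have h1' : ((B / Q ^ J : ℕ) : ℚ) ≤ cn i j a b + tau := by exact_mod_cast h1
    have h2' : (cn i j a b : ℚ) ≤ ((B / Q ^ J : ℕ) : ℚ) + tau := by exact_mod_cast h2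
    have h5 : (B : ℚ) / (Q : ℚ) ^ (J + 1) - (cn i j a b : ℚ) / Q =
        ((B : ℚ) / (Q : ℚ) ^ J - cn i j a b) / Q := by
      rw [pow_succ]
      field_simp
    rw [h5, abs_div, abs_of_pos hQq]
    refine div_le_div_of_nonneg_right ?_ hQq.le
    have h6 : (B : ℚ) / (Q : ℚ) ^ J ≤ ((B / Q ^ J : ℕ) : ℚ) + 1 := by
      rw [div_le_iff₀ hQJ]
      exact h4.le
    have h7 : ((B / Q ^ J : ℕ) : ℚ) ≤ (B : ℚ) / (Q : ℚ) ^ J := by
      rw [le_div_iff₀ hQJ]
      exact h3
    rw [abs_le]
    constructor <;> linarith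
  have hE : ∀ i ≤ n, ∀ u < N, ∑ v ∈ range N, ∑ j ∈ range (n + 1),
      (if i < j then |Ee N Q J cn mm i j u v| else 0) ≤ δ := by
    intro i _ a ha
    calc ∑ v ∈ range N, ∑ j ∈ range (n + 1), (if i < j then |Ee N Q J cn mm i j a v| else 0)
        ≤ ∑ v ∈ range N, ∑ j ∈ range (n + 1), (tau + 1) / (Q : ℚ) := by
          refine sum_le_sum fun b hb => sum_le_sum fun j hj => ?_
          rw [mem_range] at hb hj
          split_ifs with hij
          · exact hEe i j hij (by omega) a ha b hb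
          · positivity
      _ = ((n : ℚ) + 1) * N * ((tau : ℚ) + 1) / Q := by
          simp only [sum_const, card_range, nsmul_eq_mul]
          push_cast
          ring
      _ ≤ δ := hδ'
  -- the fixed vector
  set H : ℕ → ℚ := fun w => sgn (w / 2 % 2) *
    (if w % 2 = 0 then gg N n m v (w / 2 / 2 % (n + 1)) (w / 2 / 2 / (n + 1))
      else if w / 2 / 2 % (n + 1) = n ∧ w / 2 / 2 / (n + 1) = v then 1 else 0) with hH
  have hH0 : ∀ sg < 2, ∀ i ≤ n, ∀ a < N, H (cod n 0 sg i a) = sgn sg * gg N n m v i a := by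
    intro sg hs i hi a ha
    rw [hH]
    simp only
    rw [cod_ph (by omega), cod_sg (by omega) hs, cod_i (by omega) hs hi, cod_u (by omega) hs hi,
      if_pos rfl]
  have hH1 : ∀ sg < 2, ∀ i ≤ n, ∀ a < N,
      H (cod n 1 sg i a) = sgn sg * (if i = n ∧ a = v then 1 else 0) := by
    intro sg hs i hi a ha
    rw [hH]
    simp only
    rw [cod_ph (by omega), cod_sg (by omega) hs, cod_i (by omega) hs hi, cod_u (by omega) hs hi,
      if_neg one_ne_zero]
  have hfix : ∀ w < 4 * ((n + 1) * N),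
      ∑ w' ∈ range (4 * ((n + 1) * N)), X0 N n Q J cn mm w w' * H w' = H w := by
    intro w hw
    obtain ⟨ph, sg, i, a, hp, hs, hi, ha, rfl⟩ := exists_cod hw
    have hph : ph = 0 ∨ ph = 1 := by omega
    rcases hph with rfl | rfl
    · rw [act0 (y0 := gg N n m v) (y1 := fun i a => if i = n ∧ a = v then 1 else 0) hQ hH0 hH1 hs hi,
        hH0 sg hs i hi a ha, gg_eq hQ h0 hi ha hv]
    · exact act1 hQ hs hi ha
  have hfixD := Z_fix hfix D
  -- the part of the first phase
  set H0 : ℕ → ℚ := fun w => if w % 2 = 0 then H w else 0 with hH0d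
  have hAnti : Anti N n H0 2 := by
    refine ⟨gg N n m v, fun i hi a ha => hg2 i hi a ha v hv, ?_, ?_⟩
    · intro sg hs i hi a ha
      rw [hH0d]
      simp only
      rw [cod_ph (by omega), if_pos rfl, hH0 sg hs i hi a ha]
    · intro sg hs i hi a ha
      rw [hH0d]
      simp only
      rw [cod_ph (by omega), if_neg one_ne_zero]
  obtain ⟨y, hy, hy0, -⟩ := Anti.sq_step hQ hδ hE D (by norm_num : (0 : ℚ) ≤ 2) hAnti
  set w0 := cod n 0 0 0 u with hw0
  have hw0lt : w0 < 4 * ((n + 1) * N) := cod_lt (by omega) (by omega) (by omega) hu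
  have e1 : ∑ w' ∈ range (4 * ((n + 1) * N)), Z N n Q J cn mm D w0 w' * H w' =
      ∑ w' ∈ range (4 * ((n + 1) * N)), Z N n Q J cn mm D w0 w' * H0 w' +
      (Z N n Q J cn mm D w0 (cod n 1 0 n v) - Z N n Q J cn mm D w0 (cod n 1 1 n v)) := by
    have e2 : ∀ w', Z N n Q J cn mm D w0 w' * H w' = Z N n Q J cn mm D w0 w' * H0 w' +
        Z N n Q J cn mm D w0 w' * (if w' % 2 = 0 then 0 else H w') := by
      intro w'
      rw [hH0d]
      simp only
      split_ifs <;> ring
    rw [sum_congr rfl fun w' _ => e2 w', sum_add_distrib]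
    congr 1
    rw [sum_cod, sum_eq_single v]
    · rw [sum_eq_single n]
      · rw [sum_two, sum_two, sum_two, cod_ph (by omega), cod_ph (by omega), cod_ph (by omega),
          cod_ph (by omega), hH1 0 (by omega) n le_rfl v hv, hH1 1 (by omega) n le_rfl v hv]
        simp [sgn]
        ring
      · intro j hj hne
        rw [mem_range] at hj
        rw [sum_two, sum_two, sum_two, cod_ph (by omega), cod_ph (by omega), cod_ph (by omega),
          cod_ph (by omega), hH1 0 (by omega) j (by omega) v hv,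
          hH1 1 (by omega) j (by omega) v hv]
        simp [hne]
      · intro h
        exact absurd (mem_range.2 (by omega)) h
    · intro a ha hne
      rw [mem_range] at ha
      refine sum_eq_zero fun j hj => ?_
      rw [mem_range] at hj
      rw [sum_two, sum_two, sum_two, cod_ph (by omega), cod_ph (by omega), cod_ph (by omega),
        cod_ph (by omega), hH1 0 (by omega) j (by omega) a ha,
        hH1 1 (by omega) j (by omega) a ha]
      simp [hne]
    · intro h
      exact absurd (mem_range.2 hv) h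
  have e3 : ∑ w' ∈ range (4 * ((n + 1) * N)), Z N n Q J cn mm D w0 w' * H0 w' = y 0 u := by
    have := hy0 0 (by omega) 0 (by omega) u hu
    simp only at this
    rw [hw0, this]
    simp [sgn]
  have e4 : H w0 = prq N m 0 n u v := by
    rw [hw0, hH0 0 (by omega) 0 (by omega) u hu]
    simp [sgn, gg]
  set A := sqr (4 * ((n + 1) * N)) (Xe N n Q J cn mm) D w0 (cod n 1 0 n v) with hA
  set B := sqr (4 * ((n + 1) * N)) (Xe N n Q J cn mm) D w0 (cod n 1 1 n v) with hB
  have e5 := hfixD w0 hw0lt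
  rw [e1, e3, e4] at e5
  have hK : ((Q : ℚ) ^ (J + 1)) ^ 2 ^ D = (Q : ℚ) ^ ((J + 1) * 2 ^ D) := (pow_mul _ _ _).symm
  set K := (J + 1) * 2 ^ D with hKd
  have hJK : J ≤ K := by
    have : 1 ≤ 2 ^ D := Nat.one_le_two_pow
    nlinarith
  have e6 : Z N n Q J cn mm D w0 (cod n 1 0 n v) - Z N n Q J cn mm D w0 (cod n 1 1 n v) =
      ((A : ℚ) - B) / (Q : ℚ) ^ K := by
    unfold Z
    rw [hK, ← sub_div]
  rw [e6] at e5
  set G := prq N m 0 n u v with hG
  have hG0 : 0 ≤ G := prq_nonneg hmn _ _ _ _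
  have hG2 : G ≤ 2 := by
    have := hg2 0 (by omega) u hu v hv
    unfold gg at this
    rw [Nat.sub_zero] at this
    exact (le_abs_self _).trans this
  set e := δ ^ 2 ^ D * 2 with he
  have hyb : |y 0 u| ≤ e := hy 0 (by omega) u hu
  have he1 : e ≤ 1 := by rw [he]; linarith
  have hgoal : nx N n Q J D cn mm u v = (A - B) / Q ^ (K - J) % Q ^ (J + 1) := rfl
  rw [hgoal]
  have he2 : 2 * δ ^ 2 ^ D = e := by rw [he]; ring
  rw [he2]
  refine trunc hQ4 hJK hG0 hG2 he1 ?_
  rw [← e5, sub_add_cancel_right, abs_neg]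
  exact hyb

end Vale.Agent.P313.H146
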